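import Vale.Agent.P095.Tracial.Moment
import Vale.Agent.P095.Tracial.RepWeights
import Vale.Agent.P095.Tracial.Phase
import Vale.Agent.P095.Tracial.Base
import Vale.Agent.P095.Tracial.Assembly
import Vale.Agent.P095.Tracial.StageOneMain
import Vale.Agent.P095.Tracial.StageTwo
import Vale.Agent.P095.Tracial.Select
import Vale.Agent.P095.Tracial.Label
import Vale.Agent.P095.Tracial.Trace

/-!
P095 (Szabo, Conjecture A), the tracial part: if the central sequence algebra of a separable unital
C*-algebra has no characters, then every action of every amenable group is equivariantly uniformly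
McDuff, whatever the trace simplex and whatever the induced action on it.
-/

namespace Vale.Agent.Results.P095.EquivariantMcDuff

open Filter Vale.Agent.P101 Vale.Agent.P095 Vale.Agent.P095.Tracial
open scoped Topology BoundedContinuousFunction

theorem result : ∀ (A : Type) [CStarAlgebra A] [TopologicalSpace.SeparableSpace A]
    (w : Ultrafilter ℕ), (w : Filter ℕ) ≤ cofinite →
    (¬ ∃ χ : centralSeq (w : Filter ℕ) A →⋆ₐ[ℂ] ℂ,
        ∀ f : centralSeq (w : Filter ℕ) A, IsNull (w : Filter ℕ) (f : ℕ →ᵇ A) → χ f = 0) →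
    ∀ (G : Type) [Group G], Foelner G → ∀ (α : G →* (A ≃⋆ₐ[ℂ] A)),
      ∀ (K : Finset G) (S : Finset A) (ε : ℝ), 0 < ε → ∃ x : A, ‖x‖ ≤ 1 ∧
        (∀ a ∈ S, ‖x * a - a * x‖ ≤ ε) ∧
        ∀ τ, IsTraceOn (⊤ : StarSubalgebra ℂ A) τ →
          tsq τ (x * x) ≤ ε ∧ tsq τ (sq2 x - 1) ≤ ε ∧ ∀ g ∈ K, tsq τ (α g x - x) ≤ ε := by
  intro A _ _ w hw hno G _ hG α
  let : CStarAlgebra (centralSeq (w : Filter ℕ) A) :=
    StarSubalgebra.cstarAlgebra _ (h_closed := isClosed_centralSeq w)
  have hT := tracePin.{0}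
  have hM : ModelPin.{0, 0} := repPin hT momentPin
  have hS : SelectPin.{0} := selectPin phasePin
  have hp := basePin A w hw hno G α
  have e1 : ∀ x, quotAct α w 1 x = x := fun x => quotAct_one_apply α w x
  have e2 : ∀ g h x, quotAct α w (g * h) x = quotAct α w g (quotAct α w h x) :=
    fun g h x => quotAct_mul_apply α w g h x
  exact assemblyPin A w hw G α (stageTwoPin hT hM hS _ G _ e1 e2 hG hp
    (stageOnePin hT hM hS labelPin _ G _ e1 e2 hG hp))

end Vale.Agent.Results.P095.EquivariantMcDuff
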