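import Vale.Agent.P095.Bridge.Stated
import Vale.Agent.P095.Bridge.Assembly
import Vale.Agent.P095.Bridge.CentralChain
import Vale.Agent.P095.Bridge.TensorNU
import Vale.Agent.P095.Bridge.Units
import Vale.Agent.P095.Bridge.HalfFlipSteps

/-!
P095 (Szabo, Conjecture A): every action of a countable amenable group on a separable simple
nuclear Jiang-Su stable C*-algebra is equivariantly Jiang-Su stable.
-/

namespace Vale.Agent.Results.P095.EquivariantlyStable

open Vale.Agent.P101.Bridge Vale.Agent.P095 Vale.Agent.P095.Bridge

/-- Conjecture A. -/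
theorem result : ∃ (D : Type) (_ : CStarAlgebra D), IsJiangSu D ∧
    ∀ (A : Type) [NonUnitalCStarAlgebra A] [TopologicalSpace.SeparableSpace A],
    W.IsTopSimple A → W.IsNuclearA A → IsStable A D →
    ∀ (G : Type) [Group G] [Countable G], Tracial.Foelner G → ∀ α : Action G A,
      HasTensorAction α D ∧ IsEquivariantlyStable α D :=
  targetPin_of centralChainPin tensorNUPin (unitariesPin_of halfFlipStepsPin)

end Vale.Agent.Results.P095.EquivariantlyStable
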