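import Vale.Agent.P095.Rel.Main

/-!
P095 (Szabo, Conjecture A), actions with locally finite image: if the central sequence algebra of a
separable, possibly nonunital, C*-algebra has no characters, then Z(2,3) maps unitally into its
fixed algebra for every action of a countable group whose image is locally finite.
-/

namespace Vale.Agent.Results.P095.LocallyFiniteGroups

open Filter Vale.Agent.P101 Vale.Agent.P095 Vale.Agent.P095.Rel
open scoped Topology BoundedContinuousFunction

theorem result : ∀ (A : Type) [NonUnitalCStarAlgebra A] [TopologicalSpace.SeparableSpace A]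
    (w : Ultrafilter ℕ), (w : Filter ℕ) ≤ cofinite →
    ∀ (G : Type) [Group G] [Countable G] (α : G →* (A ≃⋆ₐ[ℂ] A)),
    (∀ T : Finset G, (α '' (Subgroup.closure (T : Set G) : Set G)).Finite) →
    (¬ ∃ χ : centralSeq (w : Filter ℕ) (Unitization ℂ A) →⋆ₐ[ℂ] ℂ,
        ∀ f : centralSeq (w : Filter ℕ) (Unitization ℂ A),
          AnnNull (w : Filter ℕ) (f : ℕ →ᵇ Unitization ℂ A) → χ f = 0) →
      ∃ φ : ZTwoThree → centralSeq (w : Filter ℕ) (Unitization ℂ A),
        IsFixedHomModAnn (w : Filter ℕ) (fun g => α g) φ := by
  intro A _ _ w hw G _ _ α hG hno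
  exact exists_fixedHom_locallyFinite_range hw α hG fun χ hχ => hno ⟨χ, hχ⟩

end Vale.Agent.Results.P095.LocallyFiniteGroups
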